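import Vale.Agent.P050.R4.H115.TowDef

/-!
# P050, towers: explicit classes (hubs, bisplit graphs, complete vertices)
-/

set_option autoImplicit false

namespace Vale.Agent.P050.Books

open Finset

variable {V : Type} [Fintype V]

theorem mem_down {H : SimpleGraph V} {lev : V → ℕ} {u v : V} :
    u ∈ down H lev v ↔ H.Adj v u ∧ lev u + 1 = lev v := by
  unfold down
  simp

open Classical in
/-- the levels of a hub: `1` on `A0`, `2` on the side of `b`, `3` elsewhere -/
noncomputable def hubLev (side : V → Bool) (b : V) (A0 : Finset V) (v : V) : ℕ :=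
  if side v = side b then 2 else if v ∈ A0 then 1 else 3

/-- **Hubs with nested traces are towers.** `A0` is a nonempty set of neighbours of `b`, each
vertex on the side of `b` has a neighbour in `A0`, and each vertex `w` on the other side outside
`A0` has a neighbour, the traces on `A0` of the neighbours of `w` being pairwise comparable. -/
theorem tower_of_hub (H : SimpleGraph V) (side : V → Bool)
    (hs : ∀ u v, H.Adj u v → side u ≠ side v) (b : V) (A0 : Finset V) (hA : A0.Nonempty)
    (hb : ∀ x ∈ A0, H.Adj b x) (hz : ∀ z, side z = side b → ∃ x ∈ A0, H.Adj z x)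
    (hw : ∀ w, side w ≠ side b → w ∉ A0 → (∃ z, H.Adj w z) ∧
      ∀ z z', H.Adj w z → H.Adj w z' → (∀ x ∈ A0, H.Adj z x → H.Adj z' x) ∨
        (∀ x ∈ A0, H.Adj z' x → H.Adj z x)) :
    Tower H (hubLev side b A0) b := by
  classical
  have hAs : ∀ x ∈ A0, side x ≠ side b := fun x hx => (hs b x (hb x hx)).symm
  have hl2 : ∀ v, side v = side b → hubLev side b A0 v = 2 := fun v hv => if_pos hv
  have hl1 : ∀ v ∈ A0, hubLev side b A0 v = 1 := fun v hv => by
    rw [hubLev, if_neg (hAs v hv), if_pos hv]
  have hl3 : ∀ v, side v ≠ side b → v ∉ A0 → hubLev side b A0 v = 3 := fun v h1 h2 => by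
    rw [hubLev, if_neg h1, if_neg h2]
  have hcase : ∀ v, (side v = side b ∧ hubLev side b A0 v = 2) ∨
      (v ∈ A0 ∧ hubLev side b A0 v = 1) ∨
      (side v ≠ side b ∧ v ∉ A0 ∧ hubLev side b A0 v = 3) := by
    intro v
    by_cases h1 : side v = side b
    · exact Or.inl ⟨h1, hl2 v h1⟩
    · by_cases h2 : v ∈ A0
      · exact Or.inr (Or.inl ⟨h2, hl1 v h2⟩)
      · exact Or.inr (Or.inr ⟨h1, h2, hl3 v h1 h2⟩)
  have hother : ∀ u v, H.Adj u v → side u ≠ side b → side v = side b := by
    intro u v h hu
    have h1 := hs u v h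
    revert h1 hu
    cases side u <;> cases side v <;> cases side b <;> simp
  have hone : ∀ x, hubLev side b A0 x = 1 → x ∈ A0 := by
    intro x hx
    rcases hcase x with h | h | h
    · omega
    · exact h.1
    · omega
  have hthree : ∀ x, 3 ≤ hubLev side b A0 x → side x ≠ side b ∧ x ∉ A0 ∧
      hubLev side b A0 x = 3 := by
    intro x hx
    rcases hcase x with h | h | h
    · omega
    · omega
    · exact h
  have htwo : ∀ x, hubLev side b A0 x = 2 → side x = side b := by
    intro x hx
    rcases hcase x with h | h | h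
    · exact h.1
    · omega
    · omega
  have hempty : ∀ x, hubLev side b A0 x = 1 → down H (hubLev side b A0) x = ∅ := by
    intro x hx
    rw [Finset.eq_empty_iff_forall_notMem]
    intro y hy
    have h1 := (mem_down.1 hy).2
    rcases hcase y with h | h | h <;> omega
  -- an element two levels down
  have hdd : ∀ v, 3 ≤ hubLev side b A0 v → ∀ u ∈ down H (hubLev side b A0) v,
      hubLev side b A0 u = 2 ∧ ∀ x ∈ down H (hubLev side b A0) u, hubLev side b A0 x = 1 := by
    intro v hv u hu
    have h1 := (mem_down.1 hu).2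
    have h2 := (hthree v hv).2.2
    refine ⟨by omega, fun x hx => ?_⟩
    have h3 := (mem_down.1 hx).2
    omega
  refine ⟨?_, ?_, ⟨hl2 b rfl, fun x hx => hb x (hone x hx)⟩, ?_, ?_, ?_, ?_⟩
  · intro v
    rcases hcase v with h | h | h <;> omega
  · intro u v h
    by_cases hu : side u = side b
    · have hv : side v ≠ side b := fun hv => hs u v h (hu.trans hv.symm)
      rw [hl2 u hu]
      rcases hcase v with h' | h' | h'
      · exact absurd h'.1 hv
      · omega
      · omega
    · have hv := hother u v h hu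
      rw [hl2 v hv]
      rcases hcase u with h' | h' | h'
      · exact absurd h'.1 hu
      · omega
      · omega
  · intro v hv
    rcases hcase v with h | h | h
    · obtain ⟨x, hx, hvx⟩ := hz v h.1
      exact ⟨x, mem_down.2 ⟨hvx, by rw [hl1 x hx, h.2]⟩⟩
    · omega
    · obtain ⟨⟨z, hz'⟩, -⟩ := hw v h.1 h.2.1
      exact ⟨z, mem_down.2 ⟨hz', by rw [hl2 z (hother v z hz' h.1), h.2.2]⟩⟩
  · intro v hv u hu u' hu'
    obtain ⟨h1, h2, h3⟩ := hthree v hv
    obtain ⟨-, hw'⟩ := hw v h1 h2
    have key : ∀ z z', (hubLev side b A0 z = 2) → (hubLev side b A0 z' = 2) →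
        (∀ x ∈ A0, H.Adj z x → H.Adj z' x) →
        down H (hubLev side b A0) z ⊆ down H (hubLev side b A0) z' := by
      intro z z' hz1 hz2 h x hx
      obtain ⟨h4, h5⟩ := mem_down.1 hx
      have h6 : hubLev side b A0 x = 1 := by omega
      exact mem_down.2 ⟨h x (hone x h6) h4, by omega⟩
    have e1 := (hdd v hv u hu).1
    have e2 := (hdd v hv u' hu').1
    rcases hw' u u' (mem_down.1 hu).1 (mem_down.1 hu').1 with h | h
    · exact Or.inl (key u u' e1 e2 h)
    · exact Or.inr (key u' u e2 e1 h)
  · intro v hv u hu _ x hx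
    rw [hempty x ((hdd v hv u hu).2 x hx)]
    simp
  · intro v hv u hu u' hu' _ x hx x' hx'
    have h1 : ∀ y ∈ down H (hubLev side b A0) u ∪ down H (hubLev side b A0) u',
        down H (hubLev side b A0) y = ∅ := by
      intro y hy
      rcases Finset.mem_union.1 hy with hy | hy
      · exact hempty y ((hdd v hv u hu).2 y hy)
      · exact hempty y ((hdd v hv u' hu').2 y hy)
    rw [h1 x hx, h1 x' hx']

/-- **Vertices at distance at most three, nested traces.** Every vertex on the side of `b` has a
common neighbour with `b`, every vertex on the other side has a neighbour, and for each vertex `w`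
on the other side that is not adjacent to `b` the sets `N(z) ∩ N(b)`, `z ∈ N(w)`, are pairwise
comparable. -/
theorem tower_of_dist_three (H : SimpleGraph V) (side : V → Bool)
    (hs : ∀ u v, H.Adj u v → side u ≠ side v) (b : V)
    (hz : ∀ z, side z = side b → ∃ x, H.Adj b x ∧ H.Adj z x)
    (hw : ∀ w, side w ≠ side b → ¬ H.Adj b w → (∃ z, H.Adj w z) ∧
      ∀ z z', H.Adj w z → H.Adj w z' → (∀ x, H.Adj b x → H.Adj z x → H.Adj z' x) ∨
        (∀ x, H.Adj b x → H.Adj z' x → H.Adj z x)) :
    ∃ lev, Tower H lev b := by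
  classical
  have hm : ∀ x, x ∈ (univ.filter fun x => H.Adj b x) ↔ H.Adj b x := fun x => by simp
  refine ⟨_, tower_of_hub H side hs b (univ.filter fun x => H.Adj b x) ?_ ?_ ?_ ?_⟩
  · obtain ⟨x, hx, -⟩ := hz b rfl
    exact ⟨x, (hm x).2 hx⟩
  · intro x hx
    exact (hm x).1 hx
  · intro z hzb
    obtain ⟨x, hx, hzx⟩ := hz z hzb
    exact ⟨x, (hm x).2 hx, hzx⟩
  · intro w h1 h2
    obtain ⟨h3, h4⟩ := hw w h1 fun h => h2 ((hm w).2 h)
    refine ⟨h3, fun z z' hz1 hz2 => ?_⟩
    rcases h4 z z' hz1 hz2 with h | h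
    · exact Or.inl fun x hx => h x ((hm x).1 hx)
    · exact Or.inr fun x hx => h x ((hm x).1 hx)

/-- **Bisplit graphs.** A bipartite graph without isolated vertices in which every edge has an end
in a complete bipartite subgraph with parts `A0`, `B0` is a tower. -/
theorem tower_of_bisplit (H : SimpleGraph V) (side : V → Bool)
    (hs : ∀ u v, H.Adj u v → side u ≠ side v) (hiso : ∀ v, ∃ u, H.Adj v u) (A0 B0 : Finset V)
    (hA : A0.Nonempty) (hB : B0.Nonempty) (hAB : ∀ x ∈ A0, ∀ y ∈ B0, H.Adj x y)
    (hcov : ∀ u v, H.Adj u v → u ∈ A0 ∨ v ∈ A0 ∨ u ∈ B0 ∨ v ∈ B0) :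
    ∃ lev b, Tower H lev b := by
  classical
  obtain ⟨b, hb⟩ := hB
  obtain ⟨a, ha⟩ := hA
  have hsA : ∀ x ∈ A0, side x ≠ side b := fun x hx => hs x b (hAB x hx b hb)
  have hsB : ∀ y ∈ B0, side y = side b := by
    intro y hy
    have h1 := hs a y (hAB a ha y hy)
    have h2 := hsA a ha
    revert h1 h2
    cases side a <;> cases side y <;> cases side b <;> simp
  refine ⟨_, b, tower_of_hub H side hs b A0 ⟨a, ha⟩ (fun x hx => (hAB x hx b hb).symm) ?_ ?_⟩
  · intro z hz
    by_cases hzB : z ∈ B0
    · exact ⟨a, ha, (hAB a ha z hzB).symm⟩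
    · obtain ⟨x, hx⟩ := hiso z
      have hzA : z ∉ A0 := fun h => hsA z h hz
      have hxs : side x ≠ side b := by
        rw [← hz]
        exact (hs z x hx).symm
      rcases hcov z x hx with h | h | h | h
      · exact absurd h hzA
      · exact ⟨x, h, hx⟩
      · exact absurd h hzB
      · exact absurd (hsB x h) hxs
  · intro w hw hwA
    refine ⟨hiso w, fun z z' hz hz' => Or.inl fun x hx _ => ?_⟩
    have hz's : side z' = side b := by
      have h1 := hs w z' hz'
      revert h1 hw
      cases side w <;> cases side z' <;> cases side b <;> simp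
    have hz'A : z' ∉ A0 := fun h => hsA z' h hz's
    have hwB : w ∉ B0 := fun h => hw (hsB w h)
    have hz'B : z' ∈ B0 := by
      rcases hcov w z' hz' with h | h | h | h
      · exact absurd h hwA
      · exact absurd h hz'A
      · exact absurd h hwB
      · exact h
    exact (hAB x hx z' hz'B).symm

/-- **Complete vertices.** A bipartite graph with a vertex adjacent to the whole other side and
without isolated vertices is a tower (Conlon, Fox and Sudakov). -/
theorem tower_of_complete_vertex (H : SimpleGraph V) (side : V → Bool)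
    (hs : ∀ u v, H.Adj u v → side u ≠ side v) (hiso : ∀ v, ∃ u, H.Adj v u) (b : V)
    (hb : ∀ x, side x ≠ side b → H.Adj b x) : ∃ lev, Tower H lev b := by
  refine tower_of_dist_three H side hs b ?_ ?_
  · intro z hz
    obtain ⟨x, hx⟩ := hiso z
    exact ⟨x, hb x (by rw [← hz]; exact (hs z x hx).symm), hx⟩
  · intro w hw hbw
    exact absurd (hb w hw) hbw

end Vale.Agent.P050.Books
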